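import Vale.Agent.P367T23.Main

open MeasureTheory ProbabilityTheory Filter Topology

namespace Vale.Agent.Results.P367.ATensorProduct

open Vale.Agent.P367T

/-- **QAOA attains the SK ground state energy as `p → ∞`**, with the objects of the problem: the
Hilbert space `(ℂ²)^{⊗ n}`, the Pauli operators on the factors, and independent standard Gaussian
couplings on arbitrary probability spaces. -/
theorem result :
    (∀ n : ℕ, ∃ (H : Type) (_ : NormedAddCommGroup H) (_ : InnerProductSpace ℂ H)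
      (_ : FiniteDimensional ℂ H) (e : Ident Qb n H), IsHilbertPower e) ∧
    (∀ n : ℕ, ∃ (Ω : Type) (_ : MeasurableSpace Ω) (P : Measure Ω) (J : Ω → Pairs n → ℝ),
      IsCouplings P J) ∧
    (∀ (n : ℕ) (J : Pairs n → ℝ), IsGreatest (values J) (ground J)) ∧
    ∃ (Pst : ℝ) (v : ∀ p : ℕ, (Fin p → ℝ) → (Fin p → ℝ) → ℝ) (Q : ℕ → ℝ),
      (∀ (Ω : ℕ → Type) [∀ n, MeasurableSpace (Ω n)] (P : ∀ n, Measure (Ω n))
        (J : ∀ n, Ω n → Pairs n → ℝ), (∀ n, IsCouplings (P n) (J n)) →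
        (∀ n, Integrable (fun ω => ground (J n ω)) (P n)) ∧
        Tendsto (fun n : ℕ => (n : ℝ)⁻¹ * ∫ ω, ground (J n ω) ∂P n) atTop (𝓝 Pst) ∧
        ∀ (H : ℕ → Type) [∀ n, NormedAddCommGroup (H n)] [∀ n, InnerProductSpace ℂ (H n)]
          [∀ n, FiniteDimensional ℂ (H n)] (e : ∀ n, Ident Qb n (H n)),
          (∀ n, IsHilbertPower (e n)) → ∀ (p : ℕ) (γ β : Fin p → ℝ),
          (∀ n, Integrable (fun ω => qaoa (e n) (J n ω) γ β) (P n)) ∧
          Tendsto (fun n : ℕ => (n : ℂ)⁻¹ * ∫ ω, qaoa (e n) (J n ω) γ β ∂P n) atTop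
            (𝓝 (v p γ β : ℂ))) ∧
      (∀ p, IsLUB {x | ∃ γ β, v p γ β = x} (Q p)) ∧ (∀ p, Q p < Pst) ∧ Monotone Q ∧
      Tendsto Q atTop (𝓝 Pst) ∧
      ∀ ε : ℝ, 0 < ε → ∃ p, 1 ≤ p ∧ ∃ γ β : Fin p → ℝ, Pst - ε ≤ v p γ β :=
  main

end Vale.Agent.Results.P367.ATensorProduct
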